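import Mathlib

namespace Vale.Agent.P184

/-- `e` is an idempotent matrix over the convolution algebra `ℓ¹(G)`. -/
def IsIdem {G : Type*} [Group G] {q : ℕ} (e : Matrix (Fin q) (Fin q) (G → ℂ)) : Prop :=
  (∀ i j, Summable fun g => ‖e i j g‖) ∧
    ∀ i j g, ∑ k, ∑' h, e i k h * e k j (h⁻¹ * g) = e i j g

/-- The coefficient of the Hattori-Stallings trace of `e` at the conjugacy class `C`. -/
noncomputable def tau {G : Type*} [Group G] {q : ℕ} (C : ConjClasses G)
    (e : Matrix (Fin q) (Fin q) (G → ℂ)) : ℂ :=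
  ∑' g : C.carrier, ∑ i, e i i g

/-- The conjugacy class `C` consists of elements of finite order. -/
def IsTorsionClass {G : Type*} [Group G] (C : ConjClasses G) : Prop :=
  ∀ g ∈ C.carrier, IsOfFinOrder g

/-- The `ℓ¹`-Bass conjecture for the group `G`. -/
def L1Bass (G : Type*) [Group G] : Prop :=
  ∀ (q : ℕ) (e : Matrix (Fin q) (Fin q) (G → ℂ)), IsIdem e →
    ∃ F : Finset (ConjClasses G), (∀ C ∈ F, IsTorsionClass C) ∧ ∀ C ∉ F, tau C e = 0

/-- The traces of all idempotent matrices over `ℓ¹(G)` vanish at the class of `x`. -/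
def VanishesAt {G : Type*} [Group G] (x : G) : Prop :=
  ∀ (q : ℕ) (e : Matrix (Fin q) (Fin q) (G → ℂ)), IsIdem e → tau (ConjClasses.mk x) e = 0

/-- A real character of the centralizer of `x`, not vanishing at `x`, is dominated by a
subadditive function on `G`. -/
def Charged {G : Type*} [Group G] (x : G) : Prop :=
  ∃ L φ : G → ℝ, (∀ g h, L (g * h) ≤ L g + L h) ∧
    (∀ g h, Commute g x → Commute h x → φ (g * h) = φ g + φ h) ∧
    (∀ g, Commute g x → φ g ≤ L g) ∧ φ x ≠ 0

/-- `x` is charged in every finitely generated subgroup containing it. -/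
def LocCharged {G : Type*} [Group G] (x : G) : Prop :=
  ∀ (S : Finset G) (h : x ∈ Subgroup.closure (S : Set G)),
    Charged (⟨x, h⟩ : Subgroup.closure (S : Set G))

/-- Finitely generated subgroups have finitely many conjugacy classes of finite order. -/
def LocFinTorsion (G : Type*) [Group G] : Prop :=
  ∀ S : Finset G, {C : ConjClasses (Subgroup.closure (S : Set G)) | IsTorsionClass C}.Finite

end Vale.Agent.P184
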