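import Vale.Agent.P184.Defs

/-!
# Definitions for the statements about tame elements and relatively hyperbolic groups
-/

namespace Vale.Agent.P184

/-- `L` is a length function on `G`. -/
def IsLen {G : Type*} [Group G] (L : G → ℝ) : Prop :=
  L 1 = 0 ∧ (∀ g, L g⁻¹ = L g) ∧ ∀ g h, L (g * h) ≤ L g + L h

/-- The homogeneous coboundary. -/
def cobd {G : Type*} {n : ℕ} (F : (Fin n → G) → ℝ) (p : Fin (n + 1) → G) : ℝ :=
  ∑ j : Fin (n + 1), (-1) ^ (j : ℕ) * F fun i => p (j.succAbove i)

/-- The `n`-th cup power of the coboundary of the `1`-cochain `α`. -/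
def cupd {G : Type*} (α : G → G → ℝ) (n : ℕ) (p : Fin (2 * n + 1) → G) : ℝ :=
  ∏ k : Fin n, (α (p ⟨2 * k, by omega⟩) (p ⟨2 * k + 1, by omega⟩) +
    α (p ⟨2 * k + 1, by omega⟩) (p ⟨2 * k + 2, by omega⟩) -
    α (p ⟨2 * k, by omega⟩) (p ⟨2 * k + 2, by omega⟩))

/-- A power of the real Euler class of the central extension of `C_G(x)/⟨x⟩` by `⟨x⟩` vanishes
for cochains satisfying the growth condition `gr`: `α` is a connection, and after alternation
the coboundary of `β` is the `n`-th cup power of the curvature of `α`. -/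
def NilEuler {G : Type*} [Group G] (x : G) (gr : ∀ n : ℕ, ((Fin n → G) → ℝ) → Prop) : Prop :=
  ∃ (α : G → G → ℝ) (n : ℕ) (β : (Fin (2 * n) → G) → ℝ), 0 < n ∧
    (∀ h, Commute h x → ∀ p q, α (h * p) (h * q) = α p q) ∧
    (∀ p q, α p (x * q) = α p q + 1) ∧
    (∀ h, Commute h x → ∀ p, β (fun i => h * p i) = β p) ∧
    (∀ (k : Fin (2 * n) → ℤ) p, β (fun i => x ^ k i * p i) = β p) ∧
    gr 2 (fun p => α (p 0) (p 1)) ∧ gr (2 * n) β ∧
    ∀ p : Fin (2 * n + 1) → G, ∑ σ : Equiv.Perm (Fin (2 * n + 1)),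
      ((Equiv.Perm.sign σ : ℤ) : ℝ) *
        (cupd α n (fun i => p (σ i)) - cobd β (fun i => p (σ i))) = 0

/-- `x` is tame in `G`: for some length function `L`, the Euler class is nilpotent with
subexponential growth in the quantities `L (p i⁻¹ * p j)` and `L (p i⁻¹ * x * p i)`. -/
def TameAt {G : Type*} [Group G] (x : G) : Prop :=
  ∃ L : G → ℝ, IsLen L ∧ NilEuler x fun n F => ∀ ε : ℝ, 0 < ε → ∃ C : ℝ,
    ∀ p : Fin n → G, |F p| ≤
      C * Real.exp (ε * ((∑ i, ∑ j, L ((p i)⁻¹ * p j)) + ∑ i, L ((p i)⁻¹ * x * p i)))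

/-- `x` is tame in every finitely generated subgroup containing it. -/
def LocallyTame {G : Type*} [Group G] (x : G) : Prop :=
  ∀ (S : Finset G) (h : x ∈ Subgroup.closure (S : Set G)),
    TameAt (⟨x, h⟩ : Subgroup.closure (S : Set G))

/-- For some length function `L` of `G`, the class of `x` has a polynomial conjugacy bound and
the Euler class is nilpotent on the centralizer with polynomial growth. -/
def PolyNilpotent {G : Type*} [Group G] (x : G) : Prop :=
  ∃ L : G → ℝ, IsLen L ∧ (∃ (C : ℝ) (d : ℕ), ∀ p, ∃ h, Commute h x ∧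
      L (h⁻¹ * p) ≤ C * (1 + L (p⁻¹ * x * p)) ^ d) ∧
    ∃ z : Subgroup.centralizer {x}, (z : G) = x ∧ NilEuler z fun n F => ∃ (C : ℝ) (d : ℕ),
      ∀ p : Fin n → Subgroup.centralizer {x}, |F p| ≤ C * (1 + ∑ i, ∑ j, L ((p i)⁻¹ * p j)) ^ d

/-- Some power of `x` lies in a subgroup `K` of finite index and has nontrivial image under a
homomorphism from `K` to upper unitriangular real matrices. -/
def VirtUnipotent {G : Type*} [Group G] (x : G) : Prop :=
  ∃ (K : Subgroup G) (m n : ℕ) (ρ : K →* Matrix (Fin n) (Fin n) ℝ) (h : x ^ m ∈ K),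
    K.FiniteIndex ∧ (∀ g i j, j ≤ i → ρ g i j = (1 : Matrix (Fin n) (Fin n) ℝ) i j) ∧
      ρ ⟨x ^ m, h⟩ ≠ 1

/-- `p` and `q` are joined by a walk of length `n` in the graph with edge relation `R`. -/
def Joined {G : Type*} (R : G → G → Prop) : ℕ → G → G → Prop
  | 0, p, q => p = q
  | n + 1, p, q => ∃ r, R p r ∧ Joined R n r q

/-- Edges of the Cayley graph of `G` with respect to the letters of `X` and of all the `H k`.
For `o = some l`, the edges labelled by letters of `H l` between elements of `H l` are left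
out. -/
def Adj {G : Type*} [Group G] {ι : Type*} (X : Set G) (H : ι → Subgroup G) (o : Option ι)
    (p q : G) : Prop :=
  p⁻¹ * q ∈ X ∨ q⁻¹ * p ∈ X ∨ ∃ k, p⁻¹ * q ∈ H k ∧ ¬ (o = some k ∧ p ∈ H k)

/-- `G` is hyperbolic relative to the finite family `H`: for some finite set `X`, the Cayley
graph with respect to `X` and all the `H k` is connected and hyperbolic (`d` is its metric), and
only finitely many elements of `H k` are joined to `1` by walks of given length using no edge
of the complete graph on `H k`. -/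
def IsRelHyp {G : Type*} [Group G] {ι : Type*} (H : ι → Subgroup G) : Prop :=
  Finite ι ∧ ∃ (X : Set G) (d : G → G → ℕ) (δ : ℕ), X.Finite ∧
    (∀ p q, IsLeast {n | Joined (Adj X H none) n p q} (d p q)) ∧
    (∀ a b c e, d a b + d c e ≤ max (d a c + d b e) (d a e + d b c) + δ) ∧
    ∀ k n, {h | h ∈ H k ∧ Joined (Adj X H (some k)) n 1 h}.Finite

end Vale.Agent.P184
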