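import Mathlib

/-!
# Definitions for the combined statement, cyclic form
-/

namespace Vale.Agent.P184.W

universe u v

variable {G : Type*} [Group G]

/-- `e` is an idempotent matrix over the convolution algebra `ℓ¹(G)`. -/
def IsIdem {q : ℕ} (e : Matrix (Fin q) (Fin q) (G → ℂ)) : Prop :=
  (∀ i j, Summable fun g => ‖e i j g‖) ∧
    ∀ i j g, ∑ k, ∑' h, e i k h * e k j (h⁻¹ * g) = e i j g

/-- The coefficient of the Hattori-Stallings trace of `e` at the conjugacy class `C`. -/
noncomputable def tau {q : ℕ} (C : ConjClasses G) (e : Matrix (Fin q) (Fin q) (G → ℂ)) : ℂ :=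
  ∑' g : C.carrier, ∑ i, e i i g

variable (G) in
/-- The `ℓ¹`-Bass conjecture for the group `G`. -/
def L1Bass : Prop :=
  ∀ (q : ℕ) (e : Matrix (Fin q) (Fin q) (G → ℂ)), IsIdem e → ∃ F : Finset (ConjClasses G),
    (∀ C ∈ F, ∀ g ∈ C.carrier, IsOfFinOrder g) ∧ ∀ C ∉ F, tau C e = 0

/-- The part `S` of the multiplication table of `G` lifts to the group `H`, which maps to `G`. -/
def Lifts (H : Type*) [Group H] (S : Finset G) : Prop :=
  ∃ (f : H →* G) (s : G → H), ∀ x ∈ S, f (s x) = x ∧ ∀ y ∈ S, x * y ∈ S → s x * s y = s (x * y)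

/-- The finite parts of the multiplication table of `G` lift to groups which satisfy the
`ℓ¹`-Bass conjecture. -/
def LimBass (G : Type u) [Group G] : Prop :=
  ∀ S : Finset G, ∃ (H : Type v) (_ : Group H), Lifts H S ∧ L1Bass H

/-- The traces of all idempotent matrices over `ℓ¹(G)` vanish at the class of `x`. -/
def VanishesAt (x : G) : Prop :=
  ∀ (q : ℕ) (e : Matrix (Fin q) (Fin q) (G → ℂ)), IsIdem e → tau (ConjClasses.mk x) e = 0

/-- `L` is a length function on `G`. -/
def IsLen (L : G → ℝ) : Prop :=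
  L 1 = 0 ∧ (∀ g, L g⁻¹ = L g) ∧ ∀ g h, L (g * h) ≤ L g + L h

/-- The homogeneous coboundary. -/
def cobd {G : Type*} {n : ℕ} (F : (Fin n → G) → ℝ) (p : Fin (n + 1) → G) : ℝ :=
  ∑ j : Fin (n + 1), (-1) ^ (j : ℕ) * F fun i => p (j.succAbove i)

/-- The `n`-th power of the periodicity operator annihilates the trace at the class of `x`, for
cochains satisfying the growth condition `gr`: some cyclic cochain `ψ` on the `2 * n`-tuples,
invariant under the centralizer of `x` and changing its sign under the cyclic shift which closes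
up the tuples with `x`, has coboundary `1`. -/
def CycNil (x : G) (gr : ∀ n : ℕ, ((Fin n → G) → ℝ) → Prop) : Prop :=
  ∃ (n : ℕ) (ψ : (Fin (2 * n) → G) → ℝ), 0 < n ∧ gr (2 * n) ψ ∧
    (∀ h, Commute h x → ∀ p, ψ (fun i => h * p i) = ψ p) ∧
    (∀ p : ℕ → G, p (2 * n) = x * p 0 → ψ (fun i => p (i + 1)) = -ψ fun i => p i) ∧
    ∀ p, cobd ψ p = 1

/-- `x` is tame in `G`: for some length function `L`, a power of the periodicity operator
annihilates the trace at `x`, with subexponential growth in the quantities `L (p i⁻¹ * p j)` and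
`L (p i⁻¹ * x * p i)`. -/
def TameAt (x : G) : Prop :=
  ∃ L : G → ℝ, IsLen L ∧ CycNil x fun n F => ∀ ε : ℝ, 0 < ε → ∃ C : ℝ,
    ∀ p : Fin n → G, |F p| ≤
      C * Real.exp (ε * ((∑ i, ∑ j, L ((p i)⁻¹ * p j)) + ∑ i, L ((p i)⁻¹ * x * p i)))

/-- For some length function `L` of `G`, the class of `x` has a polynomial conjugacy bound and
a power of the periodicity operator annihilates the trace at `x`, with polynomial growth on the
centralizer. -/
def PolyNilpotent (x : G) : Prop :=
  ∃ L : G → ℝ, IsLen L ∧ (∃ (C : ℝ) (d : ℕ), ∀ p, ∃ h, Commute h x ∧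
      L (h⁻¹ * p) ≤ C * (1 + L (p⁻¹ * x * p)) ^ d) ∧
    CycNil x fun n F => ∃ (C : ℝ) (d : ℕ), ∀ p : Fin n → G, (∀ i, Commute (p i) x) →
      |F p| ≤ C * (1 + ∑ i, ∑ j, L ((p i)⁻¹ * p j)) ^ d

/-- `f` is bounded on `C` and invariant under left translation by `D`. -/
def BddInv (C D : Subgroup G) (f : G → ℝ) : Prop :=
  (∃ K, ∀ c ∈ C, |f c| ≤ K) ∧ ∀ d ∈ D, ∀ c ∈ C, f (d * c) = f c

/-- There is a `C`-invariant mean on the bounded functions on `D \ C`, for subgroups `D ≤ C`
of `G`; for `D = 1` this is the amenability of `C`. -/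
def CoAmenable (C D : Subgroup G) : Prop :=
  ∃ m : (G → ℝ) → ℝ,
    (∀ f g, BddInv C D f → BddInv C D g → m (fun c => f c + g c) = m f + m g) ∧
    (∀ f, BddInv C D f → (∀ c ∈ C, 0 ≤ f c) → 0 ≤ m f) ∧ (∀ r : ℝ, m (fun _ => r) = r) ∧
    ∀ f, BddInv C D f → ∀ k ∈ C, m (fun c => f (c * k)) = m f

/-- The centralizer of `x`. -/
def Cen (x : G) : Subgroup G := Subgroup.centralizer {x}

variable (G) in
/-- Property A of Yu for the discrete group `G` (equivalently, exactness). -/
def PropertyA : Prop :=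
  ∀ (S : Finset G) (ε : ℝ), 0 < ε → ∃ (E : Finset G) (a : G → G → ℝ),
    (∀ p q, 0 ≤ a p q) ∧ (∀ p q, a p q ≠ 0 → p⁻¹ * q ∈ E) ∧ (∀ p, ∑ t ∈ E, a p (p * t) = 1) ∧
    ∀ s ∈ S, ∀ p, ∑' q, |a (p * s) q - a p q| ≤ ε

/-- `G` has property A and the centralizer of `x` is amenable. -/
def AmenCentr (x : G) : Prop :=
  PropertyA G ∧ CoAmenable (Cen x) ⊥

/-- There are a normal subgroup `D` of the centralizer of `x` containing `x` and with amenable
quotient, and a map `u` from `G` to the unit sphere of a finite dimensional space, equivariant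
for `D` acting by diagonal unitary matrices, that of `x` without eigenvalue `1`, which varies by
at most `√δ` under right translation by the elements of `S`. -/
def SlowAt (x : G) (S : Finset G) (δ : ℝ) : Prop :=
  ∃ (D : Subgroup G) (n : ℕ) (ζ u : G → Fin n → ℂ),
    x ∈ D ∧ D ≤ Cen x ∧ (∀ c ∈ Cen x, ∀ d ∈ D, c * d * c⁻¹ ∈ D) ∧ CoAmenable (Cen x) D ∧
    (∀ d j, ‖ζ d j‖ = 1) ∧ (∀ j, ζ x j ≠ 1) ∧ (∀ d ∈ D, ∀ p j, u (d * p) j = ζ d j * u p j) ∧
    (∀ p, ∑ j, ‖u p j‖ ^ 2 = 1) ∧ ∀ s ∈ S, ∀ p, ∑ j, ‖u (p * s) j - u p j‖ ^ 2 ≤ δ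

/-- `x` is tame in all finitely generated subgroups containing it, or there are arbitrarily slow
maps as in `SlowAt`. -/
def Mild (x : G) : Prop :=
  (∀ (S : Finset G) (h : x ∈ Subgroup.closure (S : Set G)),
    TameAt (⟨x, h⟩ : Subgroup.closure (S : Set G))) ∨
  ∀ (S : Finset G) (δ : ℝ), 0 < δ → SlowAt x S δ

variable (G) in
/-- The elements of infinite order are mild. -/
def MildInf : Prop := ∀ x : G, ¬ IsOfFinOrder x → Mild x

variable (G) in
/-- The elements of infinite order are mild, and for all `S` and `δ` the elements of finite order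
of the subgroup generated by `S` satisfy `SlowAt`, up to finitely many conjugacy classes. -/
def Nice : Prop :=
  MildInf G ∧ ∀ (S : Finset G) (δ : ℝ), 0 < δ → ∃ B : Finset G,
    ∀ x ∈ Subgroup.closure (S : Set G), IsOfFinOrder x → SlowAt x S δ ∨ ∃ b ∈ B, IsConj b x

variable (G) in
/-- `G` is amenable, or its elements of infinite order are mild or satisfy `AmenCentr`, and the
elements of finite order of any finitely generated subgroup satisfy `AmenCentr`, up to finitely
many conjugacy classes. -/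
def AlmostAmen : Prop :=
  CoAmenable (⊤ : Subgroup G) ⊥ ∨ (∀ x : G, ¬ IsOfFinOrder x → Mild x ∨ AmenCentr x) ∧
    ∀ S : Finset G, ∃ B : Finset G, ∀ x ∈ Subgroup.closure (S : Set G), IsOfFinOrder x →
      AmenCentr x ∨ ∃ b ∈ B, IsConj b x

/-- `p` and `q` are joined by a walk of length `n` in the graph with edge relation `R`. -/
def Joined {G : Type*} (R : G → G → Prop) (n : ℕ) (p q : G) : Prop :=
  ∃ w : ℕ → G, w 0 = p ∧ w n = q ∧ ∀ i < n, R (w i) (w (i + 1))

/-- Edges of the Cayley graph of `G` with respect to the letters of `X` and of all the `H k`.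
For `o = some l`, the edges labelled by letters of `H l` between elements of `H l` are left
out. -/
def Adj {ι : Type*} (X : Set G) (H : ι → Subgroup G) (o : Option ι) (p q : G) : Prop :=
  p⁻¹ * q ∈ X ∨ q⁻¹ * p ∈ X ∨ ∃ k, p⁻¹ * q ∈ H k ∧ ¬ (o = some k ∧ p ∈ H k)

/-- `G` is hyperbolic relative to the finite family `H`: for some finite set `X`, the Cayley
graph with respect to `X` and all the `H k` is connected and hyperbolic (`d` is its metric), and
only finitely many elements of `H k` are joined to `1` by walks of given length using no edge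
of the complete graph on `H k`. -/
def IsRelHyp {ι : Type*} (H : ι → Subgroup G) : Prop :=
  Finite ι ∧ ∃ (X : Set G) (d : G → G → ℕ) (δ : ℕ), X.Finite ∧
    (∀ p q, IsLeast {n | Joined (Adj X H none) n p q} (d p q)) ∧
    (∀ a b c e, d a b + d c e ≤ max (d a c + d b e) (d a e + d b c) + δ) ∧
    ∀ k n, {h | h ∈ H k ∧ Joined (Adj X H (some k)) n 1 h}.Finite

/-- The action of `G` on `X` is proper, cocompact and isometric, and `X` satisfies the
Bruhat-Tits (CN) inequality, as `CAT(0)` spaces do. -/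
def Cat0Action (G X : Type*) [Group G] [MetricSpace X] [MulAction G X] : Prop :=
  Nonempty X ∧ (∀ (g : G) (a b : X), dist (g • a) (g • b) = dist a b) ∧
    (∀ p q : X, ∃ m, ∀ z, dist z m ^ 2 ≤ (dist z p ^ 2 + dist z q ^ 2) / 2 - dist p q ^ 2 / 4) ∧
    (∀ a : X, ∃ r > 0, {g : G | dist a (g • a) < r}.Finite) ∧
    ∃ B : Set X, IsCompact B ∧ ∀ a : X, ∃ g : G, g • a ∈ B

/-- Some finite dimensional representation over `K` maps `x` to a matrix none of whose positive
powers is unipotent. -/
def LinDetected (x : G) (K : Type*) [Field K] : Prop :=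
  ∃ (n : ℕ) (ρ : G →* Matrix (Fin n) (Fin n) K), ∀ m : ℕ, 0 < m → ¬ IsNilpotent (ρ x ^ m - 1)

/-- `y` is the image of a positive power of `x` under a homomorphism from a subgroup of finite
index. -/
def Image {K : Type*} [Group K] (x : G) (y : K) : Prop :=
  ∃ (D : Subgroup G) (m : ℕ) (h : x ^ (m + 1) ∈ D) (f : D →* K),
    D.FiniteIndex ∧ f ⟨x ^ (m + 1), h⟩ = y

end Vale.Agent.P184.W
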