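import Mathlib

/-!
# Definitions for the statement on the pairing with cyclic cocycles
-/

namespace Vale.Agent.P184.S

universe u v

variable {G : Type*} [Group G]

/-- Matrices of functions on `G`. -/
abbrev Mat (G : Type*) (q : ℕ) := Matrix (Fin q) (Fin q) (G → ℂ)

/-- The entries of `a` are in `ℓ¹(G)`. -/
def InL1 {q : ℕ} (a : Mat G q) : Prop := ∀ i j, Summable fun g => ‖a i j g‖

/-- The product of matrices over `ℓ¹(G)`. -/
noncomputable def mul {q : ℕ} (a b : Mat G q) : Mat G q := fun i j g =>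
  ∑ k, ∑' h, a i k h * b k j (h⁻¹ * g)

/-- `e` is an idempotent matrix over `ℓ¹(G)`. -/
def IsIdem {q : ℕ} (e : Mat G q) : Prop := InL1 e ∧ mul e e = e

/-- The coefficient of the Hattori-Stallings trace of `e` at the conjugacy class `C`. -/
noncomputable def tau {q : ℕ} (C : ConjClasses G) (e : Mat G q) : ℂ :=
  ∑' g : C.carrier, ∑ i, e i i g

variable (G) in
/-- The `ℓ¹`-Bass conjecture for the group `G`. -/
def L1Bass : Prop :=
  ∀ (q : ℕ) (e : Mat G q), IsIdem e → ∃ F : Finset (ConjClasses G),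
    (∀ C ∈ F, ∀ g ∈ C.carrier, IsOfFinOrder g) ∧ ∀ C ∉ F, tau C e = 0

/-- The traces of all idempotent matrices over `ℓ¹(G)` vanish at the class of `x`. -/
def VanishesAt (x : G) : Prop :=
  ∀ (q : ℕ) (e : Mat G q), IsIdem e → tau (ConjClasses.mk x) e = 0

/-- `L` is a length function on `G`. -/
def IsLen (L : G → ℝ) : Prop :=
  L 1 = 0 ∧ (∀ g, L g⁻¹ = L g) ∧ ∀ g h, L (g * h) ≤ L g + L h

/-- The Hochschild coboundary of the cochain `φ`. -/
def hob {n : ℕ} (φ : (Fin (n + 1) → G) → ℂ) (g : Fin (n + 2) → G) : ℂ :=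
  ∑ j : Fin (n + 1), (-1) ^ (j : ℕ) * φ (j.castSucc.contractNth (· * ·) g) +
    (-1) ^ (n + 1) * φ (Fin.cons (g (Fin.last (n + 1)) * g 0) fun i => g i.castSucc.succ)

/-- `φ` is a cyclic cocycle of degree `2 * m` on the group ring of `G`, localised at the
conjugacy class of `x`. -/
def CyclicCocycle (x : G) (m : ℕ) (φ : (Fin (2 * m + 1) → G) → ℂ) : Prop :=
  (∀ g, ¬ IsConj x (List.ofFn g).prod → φ g = 0) ∧
    (∀ g, φ (fun i => g (finRotate (2 * m + 1) i)) = φ g) ∧ ∀ g, hob φ g = 0

/-- `e` decays exponentially with respect to `L`. -/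
def ExpDecay (L : G → ℝ) {q : ℕ} (e : Mat G q) : Prop :=
  ∃ ε : ℝ, 0 < ε ∧ ∀ i j, Summable fun g => ‖e i j g‖ * Real.exp (ε * L g)

/-- The cyclic cocycles of subexponential growth with respect to `L` which are localised at the
class of `x` pair to zero with the idempotent matrices which decay exponentially. -/
def StrongAt (L : G → ℝ) (x : G) : Prop :=
  ∀ (m : ℕ) (φ : (Fin (2 * m + 1) → G) → ℂ), CyclicCocycle x m φ →
    (∀ ε : ℝ, 0 < ε → ∃ C : ℝ, ∀ g, ‖φ g‖ ≤ C * Real.exp (ε * ∑ i, L (g i))) →
    ∀ (q : ℕ) (e : Mat G q), IsIdem e → ExpDecay L e →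
      HasSum (fun g => φ g * (List.ofFn fun k => Matrix.of fun i j => e i j (g k)).prod.trace) 0

variable (G) in
/-- The stronger form of the `ℓ¹`-Bass conjecture for `G`, in even degrees: for a length
function `L` dominating all others, like the word length of a finitely generated group, all
idempotents `e` over `ℓ¹(G)` are equivalent to idempotents `f` decaying exponentially, and these
pair to zero with the cyclic cocycles of subexponential growth localised at classes of infinite
order. -/
def StrongBass : Prop :=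
  ∃ L : G → ℝ, IsLen L ∧ (∀ L', IsLen L' → ∃ c : ℝ, ∀ g, L' g ≤ c * L g) ∧
    (∀ (q : ℕ) (e : Mat G q), IsIdem e → ∃ f u v : Mat G q,
      IsIdem f ∧ ExpDecay L f ∧ InL1 u ∧ InL1 v ∧ mul u v = e ∧ mul v u = f) ∧
    ∀ x : G, ¬ IsOfFinOrder x → StrongAt L x

/-- The `n`-th power of the periodicity operator annihilates the trace at the class of `x`, for
cochains satisfying the growth condition `gr`: some cyclic cochain `ψ` on the `2 * n`-tuples,
invariant under the centralizer of `x` and changing its sign under the cyclic shift which closes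
up the tuples with `x`, has homogeneous coboundary `1`. -/
def CycNil (x : G) (gr : ∀ n : ℕ, ((Fin n → G) → ℝ) → Prop) : Prop :=
  ∃ (n : ℕ) (ψ : (Fin (2 * n) → G) → ℝ), 0 < n ∧ gr (2 * n) ψ ∧
    (∀ h, Commute h x → ∀ p, ψ (fun i => h * p i) = ψ p) ∧
    (∀ p : ℕ → G, p (2 * n) = x * p 0 → ψ (fun i => p (i + 1)) = -ψ fun i => p i) ∧
    ∀ p : Fin (2 * n + 1) → G,
      ∑ j : Fin (2 * n + 1), (-1) ^ (j : ℕ) * ψ (fun i => p (j.succAbove i)) = 1

/-- `x` is tame in `G`: for some length function `L`, a power of the periodicity operator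
annihilates the trace at `x`, with subexponential growth in the quantities `L (p i⁻¹ * p j)` and
`L (p i⁻¹ * x * p i)`. -/
def TameAt (x : G) : Prop :=
  ∃ L : G → ℝ, IsLen L ∧ CycNil x fun n F => ∀ ε : ℝ, 0 < ε → ∃ C : ℝ,
    ∀ p : Fin n → G, |F p| ≤
      C * Real.exp (ε * ((∑ i, ∑ j, L ((p i)⁻¹ * p j)) + ∑ i, L ((p i)⁻¹ * x * p i)))

/-- `x` is tame in all finitely generated subgroups containing it. -/
def LocTame (x : G) : Prop :=
  ∀ (S : Finset G) (h : x ∈ Subgroup.closure (S : Set G)),
    TameAt (⟨x, h⟩ : Subgroup.closure (S : Set G))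

/-- For some length function `L` of `G`, the class of `x` has a polynomial conjugacy bound and
a power of the periodicity operator annihilates the trace at `x`, with polynomial growth on the
centralizer. -/
def PolyNilpotent (x : G) : Prop :=
  ∃ L : G → ℝ, IsLen L ∧ (∃ (C : ℝ) (d : ℕ), ∀ p, ∃ h, Commute h x ∧
      L (h⁻¹ * p) ≤ C * (1 + L (p⁻¹ * x * p)) ^ d) ∧
    CycNil x fun n F => ∃ (C : ℝ) (d : ℕ), ∀ p : Fin n → G, (∀ i, Commute (p i) x) →
      |F p| ≤ C * (1 + ∑ i, ∑ j, L ((p i)⁻¹ * p j)) ^ d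

/-- Some power of `x` lies in a subgroup `K` of finite index and has nontrivial image under a
homomorphism from `K` to upper unitriangular real matrices. -/
def VirtUnipotent (x : G) : Prop :=
  ∃ (K : Subgroup G) (m n : ℕ) (ρ : K →* Matrix (Fin n) (Fin n) ℝ) (h : x ^ m ∈ K),
    K.FiniteIndex ∧ (∀ g i j, j ≤ i → ρ g i j = (1 : Matrix (Fin n) (Fin n) ℝ) i j) ∧
      ρ ⟨x ^ m, h⟩ ≠ 1

/-- A real character of the centralizer of `x`, not vanishing at `x`, is dominated by a
subadditive function on `G`. -/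
def Charged (x : G) : Prop :=
  ∃ L φ : G → ℝ, (∀ g h, L (g * h) ≤ L g + L h) ∧
    (∀ g h, Commute g x → Commute h x → φ (g * h) = φ g + φ h) ∧
    (∀ g, Commute g x → φ g ≤ L g) ∧ φ x ≠ 0

/-- `x` is charged in all finitely generated subgroups containing it. -/
def LocCharged (x : G) : Prop :=
  ∀ (S : Finset G) (h : x ∈ Subgroup.closure (S : Set G)),
    Charged (⟨x, h⟩ : Subgroup.closure (S : Set G))

/-- `y` is the image of a positive power of `x` under a homomorphism from a subgroup of finite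
index. -/
def Image {K : Type*} [Group K] (x : G) (y : K) : Prop :=
  ∃ (D : Subgroup G) (m : ℕ) (h : x ^ (m + 1) ∈ D) (f : D →* K),
    D.FiniteIndex ∧ f ⟨x ^ (m + 1), h⟩ = y

variable (G) in
/-- `G` has finitely many conjugacy classes of elements of finite order. -/
def FinTors : Prop := {C : ConjClasses G | ∀ g ∈ C.carrier, IsOfFinOrder g}.Finite

/-- `p` and `q` are joined by a walk of length `n` in the graph with edge relation `R`. -/
def Joined {G : Type*} (R : G → G → Prop) (n : ℕ) (p q : G) : Prop :=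
  ∃ w : ℕ → G, w 0 = p ∧ w n = q ∧ ∀ i < n, R (w i) (w (i + 1))

/-- Edges of the Cayley graph of `G` with respect to the letters of `X` and of all the `H k`.
For `o = some l`, the edges labelled by letters of `H l` between elements of `H l` are left
out. -/
def Adj {ι : Type*} (X : Set G) (H : ι → Subgroup G) (o : Option ι) (p q : G) : Prop :=
  p⁻¹ * q ∈ X ∨ q⁻¹ * p ∈ X ∨ ∃ k, p⁻¹ * q ∈ H k ∧ ¬ (o = some k ∧ p ∈ H k)

/-- `G` is hyperbolic relative to the finite family `H`: for some finite set `X`, the Cayley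
graph with respect to `X` and all the `H k` is connected and hyperbolic (`d` is its metric), and
only finitely many elements of `H k` are joined to `1` by walks of given length using no edge
of the complete graph on `H k`. -/
def IsRelHyp {ι : Type*} (H : ι → Subgroup G) : Prop :=
  Finite ι ∧ ∃ (X : Set G) (d : G → G → ℕ) (δ : ℕ), X.Finite ∧
    (∀ p q, IsLeast {n | Joined (Adj X H none) n p q} (d p q)) ∧
    (∀ a b c e, d a b + d c e ≤ max (d a c + d b e) (d a e + d b c) + δ) ∧
    ∀ k n, {h | h ∈ H k ∧ Joined (Adj X H (some k)) n 1 h}.Finite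

end Vale.Agent.P184.S
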