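import Vale.Agent.P184.Bdl.B4
import Vale.Agent.P184.Bdl.B5

/-!
# The clauses of the statement on the pairing with cyclic cocycles
-/

noncomputable section

namespace Vale.Agent.P184

universe u v

/-! ### Dominating length functions -/

section Dominating

variable {G : Type*} [Group G]

/-- the length functions bounded by `1` on `S` -/
def lens (S : Set G) : Set (G → ℝ) := {l | IsLength l ∧ ∀ s ∈ S, l s ≤ 1}

theorem zero_mem_lens (S : Set G) : (fun _ => 0) ∈ lens S :=
  ⟨⟨rfl, fun _ => rfl, fun _ _ => by simp⟩, fun _ _ => zero_le_one⟩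

theorem lens_bdd {S : Set G} (hS : Subgroup.closure S = ⊤) (g : G) :
    ∃ B, ∀ l ∈ lens S, l g ≤ B := by
  have hg : g ∈ Subgroup.closure S := by rw [hS]; exact Subgroup.mem_top g
  induction hg using Subgroup.closure_induction with
  | mem s hs => exact ⟨1, fun l hl => hl.2 s hs⟩
  | one => exact ⟨0, fun l hl => hl.1.1.le⟩
  | mul a b _ _ ha hb =>
    obtain ⟨A, hA⟩ := ha
    obtain ⟨B, hB⟩ := hb
    exact ⟨A + B, fun l hl => (hl.1.2.2 a b).trans (add_le_add (hA l hl) (hB l hl))⟩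
  | inv a _ ha =>
    obtain ⟨A, hA⟩ := ha
    exact ⟨A, fun l hl => (hl.1.2.1 a).le.trans (hA l hl)⟩

/-- the largest length function bounded by `1` on `S` -/
def maxLen (S : Set G) (g : G) : ℝ := sSup ((fun l : G → ℝ => l g) '' lens S)

theorem le_maxLen {S : Set G} (hS : Subgroup.closure S = ⊤) {l : G → ℝ} (hl : l ∈ lens S)
    (g : G) : l g ≤ maxLen S g := by
  obtain ⟨B, hB⟩ := lens_bdd hS g
  exact le_csSup ⟨B, by rintro _ ⟨l, hl, rfl⟩; exact hB l hl⟩ ⟨l, hl, rfl⟩

theorem maxLen_le {S : Set G} {g : G} {B : ℝ} (h : ∀ l ∈ lens S, l g ≤ B) : maxLen S g ≤ B :=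
  csSup_le (Set.Nonempty.image _ ⟨_, zero_mem_lens S⟩) (by rintro _ ⟨l, hl, rfl⟩; exact h l hl)

theorem maxLen_length {S : Set G} (hS : Subgroup.closure S = ⊤) : IsLength (maxLen S) := by
  refine ⟨le_antisymm (maxLen_le fun l hl => hl.1.1.le) (le_maxLen hS (zero_mem_lens S) 1),
    fun g => ?_, fun g h => ?_⟩
  · refine le_antisymm (maxLen_le fun l hl => ?_) (maxLen_le fun l hl => ?_)
    · rw [hl.1.2.1]; exact le_maxLen hS hl g
    · rw [← hl.1.2.1]; exact le_maxLen hS hl g⁻¹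
  · exact maxLen_le fun l hl => (hl.1.2.2 g h).trans
      (add_le_add (le_maxLen hS hl g) (le_maxLen hS hl h))

theorem maxLen_dom {S : Set G} (hS : Subgroup.closure S = ⊤) (hfin : S.Finite) {l : G → ℝ}
    (hl : IsLength l) : ∃ c : ℝ, 0 < c ∧ ∀ g, l g ≤ c * maxLen S g := by
  obtain ⟨B, hB⟩ := (hfin.image l).bddAbove
  set c := max B 1 with hc
  have hc0 : 0 < c := lt_of_lt_of_le one_pos (le_max_right _ _)
  refine ⟨c, hc0, fun g => ?_⟩
  have h1 : (fun g => l g / c) ∈ lens S := by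
    refine ⟨⟨by simp [hl.1], fun g => by simp only [hl.2.1], fun g h => ?_⟩, fun s hs => ?_⟩
    · rw [← add_div]
      exact div_le_div_of_nonneg_right (hl.2.2 g h) hc0.le
    · rw [div_le_one hc0]
      exact (hB ⟨s, hs, rfl⟩).trans (le_max_left _ _)
  have h2 := le_maxLen hS h1 g
  rwa [div_le_iff₀ hc0, mul_comm] at h2

end Dominating

theorem SubExp.dom {G : Type*} [Group G] {x : G} {L L' : G → ℝ} {c : ℝ} (hc : 0 < c)
    (h : ∀ g, L' g ≤ c * L g) {n : ℕ} {F : (Fin n → G) → ℝ}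
    (hF : SubExp x L' F) : SubExp x L F := by
  intro ε hε
  obtain ⟨C, hC0, hC⟩ := hF.pos (div_pos hε hc)
  refine ⟨C, fun p => (hC p).trans (mul_le_mul_of_nonneg_left (Real.exp_le_exp.mpr ?_) hC0)⟩
  have h1 : siz x L' p ≤ c * siz x L p := by
    unfold siz
    rw [mul_add, Finset.mul_sum, Finset.mul_sum]
    refine add_le_add (Finset.sum_le_sum fun i _ => ?_) (Finset.sum_le_sum fun i _ => h _)
    rw [Finset.mul_sum]
    exact Finset.sum_le_sum fun j _ => h _
  calc ε / c * siz x L' p ≤ ε / c * (c * siz x L p) :=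
        mul_le_mul_of_nonneg_left h1 (div_pos hε hc).le
    _ = ε * siz x L p := by field_simp

/-- The conclusion for all length functions dominating the one in the definition of tameness. -/
theorem strongAt_of_dom {G : Type*} [Group G] {x : G} (h : CycTame x) :
    ∃ L₀ : G → ℝ, IsLength L₀ ∧ ∀ L, IsLength L → (∃ c : ℝ, ∀ g, L₀ g ≤ c * L g) →
      S.StrongAt L x := by
  obtain ⟨L₀, hL₀, n, ψ, hn, h1, h2, h3, h4⟩ := h
  refine ⟨L₀, hL₀, fun L hL ⟨c, hc⟩ => ?_⟩
  refine strongAt_of_cyc hL hn h1 (h2.dom (c := max c 1) (by positivity) (fun g => ?_)) h3 h4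
  exact (hc g).trans (mul_le_mul_of_nonneg_right (le_max_left _ _) (hL.nonneg g))

/-- In a relatively hyperbolic group. -/
theorem RelHyperbolic.locCyc {G : Type*} [Group G] {ι : Type*} {H : ι → Subgroup G}
    (hG : RelHyperbolic H) (hH : ∀ l (y : H l), ¬ IsOfFinOrder y → LocCyc y) (x : G)
    (hx : ¬ IsOfFinOrder x) : LocCyc x := by
  obtain ⟨hfin, X, δ, S⟩ := hG.exists_rh
  rcases S.charged_or_parabolic hx with h | ⟨l, w, h⟩
  · exact locCyc_of_cyc (cycTame_of_tame (tame_of_charged h))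
  · have hx' : ¬ IsOfFinOrder (w⁻¹ * x * w) := by
      intro h'
      apply hx
      refine IsConj.isOfFinOrder (isConj_iff.2 ⟨w, ?_⟩) h'
      group
    have h3 : ¬ IsOfFinOrder (⟨w⁻¹ * x * w, h⟩ : H l) := by
      rwa [← Submonoid.isOfFinOrder_coe (H := (H l).toSubmonoid)]
    exact locCyc_conj w (S.locCyc_of_peripheral h3 (hH l _ h3))

namespace S

theorem isIdem_iff {G : Type*} [Group G] {q : ℕ} {e : Mat G q} :
    IsIdem e ↔ Vale.Agent.P184.IsIdem e :=
  and_congr Iff.rfl ⟨fun h i j g => congrFun (congrFun (congrFun h i) j) g,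
    fun h => funext fun i => funext fun j => funext fun g => h i j g⟩

theorem tameAt_iff {G : Type*} [Group G] {x : G} : TameAt x ↔ CycTame x := by
  constructor
  · rintro ⟨L, hL, n, ψ, hn, h1, h2, h3, h4⟩
    exact ⟨L, hL, n, ψ, hn, h2, h1, h3, h4⟩
  · rintro ⟨L, hL, n, ψ, hn, h1, h2, h3, h4⟩
    exact ⟨L, hL, n, ψ, hn, h2, h1, h3, h4⟩

theorem isRelHyp_iff {G : Type*} [Group G] {ι : Type*} {H : ι → Subgroup G} :
    IsRelHyp H ↔ V.IsRelHyp H := Iff.rfl

theorem locTame_iff {G : Type*} [Group G] {x : G} : LocTame x ↔ LocCyc x :=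
  forall_congr' fun _ => forall_congr' fun _ => tameAt_iff

theorem cycTame_of_fg {G : Type*} [Group G] (hG : Group.FG G) {x : G} (h : LocCyc x) :
    CycTame x := by
  obtain ⟨S, hS⟩ := Group.fg_def.1 hG
  have hx : x ∈ Subgroup.closure (S : Set G) := by rw [hS]; exact Subgroup.mem_top x
  let f : G →* Subgroup.closure (S : Set G) :=
    (MonoidHom.id G).codRestrict (Subgroup.closure (S : Set G))
      (fun g => by rw [hS]; exact Subgroup.mem_top _)
  exact CycTame.map f (h S hx)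

theorem vanishesAt_of_loc {G : Type*} [Group G] {x : G} (h : LocTame x) : VanishesAt x :=
  fun q e he => vanishesAt_of_locCyc (locTame_iff.1 h) q e (isIdem_iff.1 he)

theorem strongAt_of_tame {G : Type*} [Group G] {x : G} (h : TameAt x) :
    ∃ L₀ : G → ℝ, IsLen L₀ ∧ ∀ L, IsLen L → (∃ c : ℝ, ∀ g, L₀ g ≤ c * L g) → StrongAt L x :=
  strongAt_of_dom (tameAt_iff.1 h)

theorem strongBass_of_loc {G : Type*} [Group G] (hG : Group.FG G)
    (h : ∀ x : G, ¬ IsOfFinOrder x → LocTame x) : StrongBass G := by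
  obtain ⟨S, hS⟩ := Group.fg_def.1 hG
  have hL := maxLen_length hS
  refine ⟨maxLen (S : Set G), hL, fun l hl => ?_, fun q e he => ?_, fun x hx => ?_⟩
  · obtain ⟨c, _, hc⟩ := maxLen_dom hS S.finite_toSet hl
    exact ⟨c, hc⟩
  · obtain ⟨ε, hε, f, u, v, hf, hdec, hu, hv, h1, h2⟩ :=
      exists_decay_equiv (maxLen (S : Set G)) hL.nonneg hL.2.2 e (isIdem_iff.1 he)
    exact ⟨f, u, v, isIdem_iff.2 hf, ⟨ε, hε, hdec⟩, hu, hv,
      funext fun i => funext fun j => funext fun g => h1 i j g,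
      funext fun i => funext fun j => funext fun g => h2 i j g⟩
  · obtain ⟨L₀, hL₀, h1⟩ := strongAt_of_dom (cycTame_of_fg hG (locTame_iff.1 (h x hx)))
    obtain ⟨c, _, hc⟩ := maxLen_dom hS S.finite_toSet hL₀
    exact h1 _ hL ⟨c, hc⟩

theorem l1Bass_of_locTame {G : Type u} [Group G] (h : ∀ x : G, ¬ IsOfFinOrder x → LocTame x)
    (h' : ∀ S : Finset G, FinTors (Subgroup.closure (S : Set G))) : L1Bass G :=
  fun q e he => l1Bass_of_tgoodL (fun x hx => vanishesAt_of_locCyc (locTame_iff.1 (h x hx)))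
    (tgoodL_of_locFin h') q e (isIdem_iff.1 he)

theorem l1Bass_of_fin {G : Type u} [Group G] (h : ∀ x : G, ¬ IsOfFinOrder x → LocTame x)
    (h' : FinTors G) : L1Bass G :=
  fun q e he => l1Bass_of_finite_torsion
    (fun x hx => vanishesAt_of_locCyc (locTame_iff.1 (h x hx))) h' q e (isIdem_iff.1 he)

theorem relHyp_loc {G : Type*} [Group G] {ι : Type*} {H : ι → Subgroup G} (hG : IsRelHyp H)
    (hH : ∀ k (y : H k), ¬ IsOfFinOrder y → LocTame y) (x : G) (hx : ¬ IsOfFinOrder x) :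
    LocTame x :=
  locTame_iff.2 ((V.relHyperbolic_of (isRelHyp_iff.1 hG)).locCyc
    (fun l y hy => locTame_iff.1 (hH l y hy)) x hx)

theorem relHyp_tors {G : Type*} [Group G] {ι : Type*} {H : ι → Subgroup G} (hG : IsRelHyp H)
    (hH : ∀ k, FinTors (H k)) : FinTors G :=
  (V.relHyperbolic_of (isRelHyp_iff.1 hG)).finite_torsion hH

theorem loc_of_poly {G : Type*} [Group G] {x : G} (h : PolyNilpotent x) : LocTame x := by
  obtain ⟨L, hL, h1, n, ψ, hn, h2, h3, h4, h5⟩ := h
  exact locTame_iff.2 (locCyc_of_cyc (cycTame_of_poly hL h1 hn ψ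
    (fun h hh p _ => h3 h hh p) (fun p _ => h4 p) (fun p _ => h5 p) h2))

theorem loc_of_unip {G : Type*} [Group G] {x : G} (h : VirtUnipotent x) : LocTame x :=
  locTame_iff.2 (locCyc_of_cyc (cycTame_of_tame (tame_of_uniDetected h)))

theorem loc_of_charged {G : Type*} [Group G] {x : G} (h : LocCharged x) : LocTame x :=
  locTame_iff.2 fun S hS => cycTame_of_tame (tame_of_charged (h S hS))

theorem relHyp_all {G : Type u} [Group G] {ι : Type v} {H : ι → Subgroup G} (hG : IsRelHyp H)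
    (h : ∀ k (y : H k), ¬ IsOfFinOrder y → LocTame y) :
    (∀ x : G, ¬ IsOfFinOrder x → LocTame x) ∧ (Group.FG G → StrongBass G) ∧
      ((∀ k, FinTors (H k)) → FinTors G ∧ L1Bass G) := by
  have h1 := relHyp_loc hG h
  exact ⟨h1, fun h2 => strongBass_of_loc h2 h1,
    fun h2 => ⟨relHyp_tors hG h2, l1Bass_of_fin h1 (relHyp_tors hG h2)⟩⟩

theorem loc_of {G : Type u} [Group G] {x : G}
    (h : PolyNilpotent x ∨ VirtUnipotent x ∨ LocCharged x) : LocTame x := by
  rcases h with h | h | h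
  · exact loc_of_poly h
  · exact loc_of_unip h
  · exact loc_of_charged h

theorem loc_of_image {G : Type*} [Group G] {K : Type*} [Group K] {x : G} {y : K}
    (hxy : Image x y) (h : LocTame y) : LocTame x := by
  obtain ⟨D, m, hm, f, hD, rfl⟩ := hxy
  exact locTame_iff.2 (locCyc_of_finiteIndex D m.succ_ne_zero hm
    (locCyc_of_map f (locTame_iff.1 h)))

end S

end Vale.Agent.P184
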